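import Vale.Agent.P032.H646.Rank

/-!
# P032: the kernel check of the cluster of a (2,2)-centre (helper646)

Positions are pairs (slot, rank).  `T3` is the table of the centres with two ends of one type and one
end of the complementary type: the bit `8 * k3 + b0 + 2 b1 + 4 b2` says that ends at positions with
the key `k3` and the orientations `b` (`true` = the exact arc is before the end) are possible.
`chk` : the cluster with centre `z` and partners `w00, w01, w10, w11`, directions `A = z - v 0`,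
`B = z - v 1`, `C = q 0 - z`, `D = q 1 - z`, all partners with two ends of the type of `v`.
-/

namespace Vale.Agent.P032.H646

/-- the table of the (2,1)-centres -/
def T3 : ℕ := 0x999900000000000000000000000d000000000000000000999900009900000000000000d8d000001d0000000000000099009900990000000000000098009900190000000000000000000000000000000000000000000000000000000000000000dfdf0000fd77000000000000f8ff00001f0e000000000064ee0000fffd00004600000072700000ffff00002e00000074007f00ff00fe004e00000072007f00ff00fe002e0000000000000000000000000000000000000000000000000000000074700000ffff00004e00000062ee0000fffb000026000000000000f8ff00001f0e000000000000bfbf0000fb7700000000000098009900190000000000000099009900990000000000000000000000000000000000000000000000000000000000000000b8b000001b00000000000000999900009900000000000000000000000b00000000000000000000999900000000000000000000000000000000000000000000000000000000000000000000000000000000000000000000000000000000000000000000000000000000000000000000000000000000000000000000000000000000000000000000000000000000000000000000000000000000000000000000000000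

/-- the key of three positions, the first one is the base -/
def k3 (s0 r0 s1 r1 s2 r2 : ℕ) : ℕ :=
  (4 * fN s0 r0 s1 r1 + (gN r0 r0 r1).toNat + (gN r0 r2 r1).toNat) * 24 +
    (4 * fN s0 r0 s2 r2 + (gN r0 r0 r2).toNat + (gN r0 r1 r2).toNat)

/-- the test of a (2,1)-centre -/
def t3 (k : ℕ) (b0 b1 b2 : Bool) : Bool :=
  Nat.testBit T3 (8 * k + b0.toNat + 2 * b1.toNat + 4 * b2.toNat)

/-- the sign of the determinant -/
def sg (s r t q : ℕ) : Bool := Nat.blt (fN s r t q) 3

/-- the pattern of a (2,2)-centre which does not occur (positions only) -/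
def pat (s0 r0 s1 r1 s2 r2 s3 r3 : ℕ) : Bool :=
  Nat.beq (fN s0 r0 s1 r1) 1 && Nat.beq (fN s1 r1 s0 r0) 4 && Nat.beq (fN s0 r0 s2 r2) 0 &&
    Nat.beq (fN s2 r2 s0 r0) 5 && Nat.beq (fN s2 r2 s1 r1) 0 && Nat.beq (fN s1 r1 s2 r2) 5 &&
    Nat.beq (fN s0 r0 s3 r3) 0 && Nat.beq (fN s3 r3 s0 r0) 5 && Nat.beq (fN s3 r3 s1 r1) 0 &&
    Nat.beq (fN s1 r1 s3 r3) 5

/-- positive spanning of three rays, in signs -/
def span (o1 s12 o2 s23 o3 s31 : Bool) : Bool :=
  (((o1 == o2) == s12) == ((o2 == o3) == s23)) && (((o2 == o3) == s23) == ((o3 == o1) == s31))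

/-- the constraints, for given signs -/
def cns (K00 K01 K10 K11 : ℕ) (sAC sAD sAB sBC sBD sCD oz0 oz1 zq0 zq1 i j : Bool) : Bool :=
  let i2 := (!sAC == !sBC) != i
  let j2 := (sAC == sAD) == j
  let a0 := !sAC == i
  let a1 := !sAD == !i
  let a2 := !sBC == i2
  let a3 := !sBD == !i2
  let q0 := sAC == j
  let q1 := sAD == j2
  let q2 := sBC == !j
  let q3 := sBD == !j2
  let p0 := !sAB == ((sBC == !sAB) != (oz1 == sBC))
  let p1 := !sAB == ((sBD == !sAB) != (oz1 == sBD))
  let p2 := sAB == ((sAC == sAB) != (oz0 == sAC))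
  let p3 := sAB == ((sAD == sAB) != (oz0 == sAD))
  ((q0 == sAB) == !(zq0 == !sBC)) && ((q2 == !sAB) == !(zq0 == !sAC)) &&
    ((q1 == sAB) == !(zq1 == !sBD)) && ((q3 == !sAB) == !(zq1 == !sAD)) &&
    span oz0 sAC a0 sCD a1 (!sAD) && span oz1 sBC a2 sCD a3 (!sBD) &&
    t3 K00 a0 p0 q0 && t3 K01 a1 p1 q1 && t3 K10 a2 p2 q2 && t3 K11 a3 p3 q3

/-- both values -/
def bAll (f : Bool → Bool) : Bool := f false && f true

theorem bAll_spec {f : Bool → Bool} (h : bAll f = true) (b : Bool) : f b = true := by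
  unfold bAll at h
  rw [Bool.and_eq_true] at h
  cases b
  exacts [h.1, h.2]

/-- forced evaluation -/
def fb (b : Bool) (f : Bool → Bool) : Bool := bif b then f true else f false

theorem fb_eq (b : Bool) (f : Bool → Bool) : fb b f = f b := by cases b <;> rfl

/-- all numbers less than `n` -/
def nAll (f : ℕ → Bool) : ℕ → Bool
  | 0 => true
  | n + 1 => f n && nAll f n

theorem nAll_spec {f : ℕ → Bool} : ∀ {n : ℕ}, nAll f n = true → ∀ k, k < n → f k = true
  | 0, _, k, hk => absurd hk (Nat.not_lt_zero k)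
  | n + 1, h, k, hk => by
    unfold nAll at h
    rw [Bool.and_eq_true] at h
    rcases Nat.lt_succ_iff_lt_or_eq.1 hk with h1 | h1
    · exact nAll_spec h.2 k h1
    · rw [h1]; exact h.1

/-- no possible record -/
def z3 (k : ℕ) : Bool := Nat.beq ((T3 >>> (8 * k)) % 256) 0

/-- the check of a position -/
def chk (s1 r1 s2 r2 s3 r3 : ℕ) : Bool :=
  (sg s1 r1 s2 r2 == sg s2 r2 s1 r1) || (sg s1 r1 s3 r3 == sg s3 r3 s1 r1) ||
  (sg s1 r1 0 0 == sg 0 0 s1 r1) || (sg 0 0 s2 r2 == sg s2 r2 0 0) ||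
  (sg 0 0 s3 r3 == sg s3 r3 0 0) || (sg s2 r2 s3 r3 == sg s3 r3 s2 r2) ||
  z3 (k3 (s2 + 3) r2 3 0 s1 r1) || z3 (k3 (s3 + 3) r3 3 0 s1 r1) ||
  z3 (k3 (s2 + 3) r2 (s1 + 3) r1 0 0) || z3 (k3 (s3 + 3) r3 (s1 + 3) r1 0 0) ||
  fb (sg s1 r1 s2 r2) fun sAC => fb (sg s1 r1 s3 r3) fun sAD => fb (sg s1 r1 0 0) fun sAB =>
  fb (sg 0 0 s2 r2) fun sBC => fb (sg 0 0 s3 r3) fun sBD => fb (sg s2 r2 s3 r3) fun sCD =>
  bAll fun oz0 => bAll fun oz1 => bAll fun zq0 => bAll fun zq1 => bAll fun i => bAll fun j =>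
    !(cns (k3 (s2 + 3) r2 3 0 s1 r1) (k3 (s3 + 3) r3 3 0 s1 r1)
        (k3 (s2 + 3) r2 (s1 + 3) r1 0 0) (k3 (s3 + 3) r3 (s1 + 3) r1 0 0)
        sAC sAD sAB sBC sBD sCD oz0 oz1 zq0 zq1 i j) ||
      ((pat (s1 + 3) r1 3 0 s2 r2 s3 r3 || pat 3 0 (s1 + 3) r1 s2 r2 s3 r3) &&
        (oz0 == oz1) && (zq0 == zq1) && (zq0 != oz0))

/-- the check of all positions -/
def chkAll : Bool :=
  nAll (fun s1 => nAll (fun r1 => nAll (fun s2 => nAll (fun r2 => nAll (fun s3 =>
    nAll (fun r3 => chk s1 r1 s2 r2 s3 r3) 4) 6) 4) 6) 4) 6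

set_option maxRecDepth 4000 in
theorem chkAll_true : chkAll = true := by decide +kernel

theorem chk_true {s1 r1 s2 r2 s3 r3 : ℕ} (h1 : s1 < 6) (k1 : r1 < 4) (h2 : s2 < 6) (k2 : r2 < 4)
    (h3 : s3 < 6) (k3 : r3 < 4) : chk s1 r1 s2 r2 s3 r3 = true :=
  nAll_spec (nAll_spec (nAll_spec (nAll_spec (nAll_spec (nAll_spec chkAll_true s1 h1) r1 k1) s2 h2)
    r2 k2) s3 h3) r3 k3

end Vale.Agent.P032.H646
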